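import Mathlib

/-!
Kähler metrics on open subsets of `ℂⁿ`: Levi-Civita connection, curvature tensor, bisectional
curvature, Riemannian distance, completeness.
-/

namespace Vale.Agent.P253

open scoped ContDiff ENNReal Topology
open Set Filter MeasureTheory

/-- The value at `p` of a field of bilinear maps, evaluated at `X, Y`. -/
noncomputable def ev {E F : Type} [NormedAddCommGroup E] [NormedSpace ℝ E] [NormedAddCommGroup F]
    [NormedSpace ℝ F] (f : E → E →L[ℝ] E →L[ℝ] F) (p X Y : E) : F := f p X Y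

/-- The derivative at `p` in the direction `X` of a field of bilinear maps, evaluated at `Y, Z`. -/
noncomputable def dd {E F : Type} [NormedAddCommGroup E] [NormedSpace ℝ E] [NormedAddCommGroup F]
    [NormedSpace ℝ F] (f : E → E →L[ℝ] E →L[ℝ] F) (p X Y Z : E) : F :=
  fderiv ℝ (fun q => ev f q Y Z) p X

/-- Smoothness of a field of bilinear maps on `M`. -/
def Sm {E F : Type} [NormedAddCommGroup E] [NormedSpace ℝ E] [NormedAddCommGroup F]
    [NormedSpace ℝ F] (f : E → E →L[ℝ] E →L[ℝ] F) (M : Set E) : Prop := ContDiffOn ℝ ∞ f M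

/-- A Kähler metric `g` on an open set `M ⊆ ℂⁿ`, together with the Christoffel map `Γ` of its
Levi-Civita connection (uniquely determined on `M` by the Koszul formula). -/
structure KahlerMetric {n : ℕ} (M : Set (Fin n → ℂ)) where
  g : (Fin n → ℂ) → (Fin n → ℂ) →L[ℝ] (Fin n → ℂ) →L[ℝ] ℝ
  Γ : (Fin n → ℂ) → (Fin n → ℂ) →L[ℝ] (Fin n → ℂ) →L[ℝ] (Fin n → ℂ)
  smooth : Sm g M
  smoothΓ : Sm Γ M
  symm' : ∀ p ∈ M, ∀ X Y, ev g p X Y = ev g p Y X
  pos' : ∀ p ∈ M, ∀ X, X ≠ 0 → 0 < ev g p X X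
  hermitian' : ∀ p ∈ M, ∀ X Y, ev g p (Complex.I • X) (Complex.I • Y) = ev g p X Y
  closed' : ∀ p ∈ M, ∀ X Y Z, dd g p X (Complex.I • Y) Z +
    dd g p Y (Complex.I • Z) X + dd g p Z (Complex.I • X) Y = 0
  koszul' : ∀ p ∈ M, ∀ X Y Z, ev g p (ev Γ p X Y) Z =
    (dd g p X Y Z + dd g p Y X Z - dd g p Z X Y) / 2

namespace KahlerMetric

variable {n : ℕ} {M : Set (Fin n → ℂ)} (K : KahlerMetric M)

/-- The curvature tensor `R(X, Y) Z = ∇_X ∇_Y Z - ∇_Y ∇_X Z` (constant vector fields). -/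
noncomputable def riem (p X Y Z : Fin n → ℂ) : Fin n → ℂ :=
  dd K.Γ p X Y Z - dd K.Γ p Y X Z + ev K.Γ p X (ev K.Γ p Y Z) - ev K.Γ p Y (ev K.Γ p X Z)

/-- `Rm(a, b, b, a)`, the numerator of the sectional curvature of the plane spanned by `a, b`. -/
noncomputable def rm (p a b : Fin n → ℂ) : ℝ := ev K.g p (K.riem p a b b) a

/-- Nonnegative holomorphic bisectional curvature. -/
def NonnegBisec : Prop :=
  ∀ p ∈ M, ∀ u v, ev K.g p u u = 1 → ev K.g p v v = 1 → 0 ≤ K.rm p u v + K.rm p u (Complex.I • v)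

/-- The Riemannian distance: the infimum of the lengths of `C¹` paths in `M`. -/
noncomputable def dist (p q : Fin n → ℂ) : ℝ≥0∞ :=
  ⨅ (γ : ℝ → Fin n → ℂ) (_ : ContDiff ℝ 1 γ) (_ : MapsTo γ (Icc 0 1) M) (_ : γ 0 = p)
    (_ : γ 1 = q), ∫⁻ t in Icc (0 : ℝ) 1, ENNReal.ofReal √(ev K.g (γ t) (deriv γ t) (deriv γ t))

/-- Completeness: Cauchy sequences for the Riemannian distance converge in `M`. -/
def Complete : Prop :=
  ∀ x : ℕ → Fin n → ℂ, (∀ k, x k ∈ M) →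
    (∀ ε : ℝ≥0∞, 0 < ε → ∃ N, ∀ k ≥ N, ∀ l ≥ N, K.dist (x k) (x l) < ε) →
      ∃ p ∈ M, Tendsto x atTop (𝓝 p)

end KahlerMetric

/-- The weighted rotation `z j ↦ exp (i θ a j) z j`. -/
noncomputable def rot {n : ℕ} (a : Fin n → ℝ) (θ : ℝ) (z : Fin n → ℂ) : Fin n → ℂ :=
  fun j => Complex.exp (Complex.I * (θ * a j : ℝ)) * z j

end Vale.Agent.P253
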